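import Crest.Agent.R163.Q3.D.P8L.Par
import Crest.Agent.R163.Q3.D.F8L.F0
import Crest.Agent.R163.Q3.D.F8L.F1
import Crest.Agent.R163.Q3.D.F8L.F2
import Crest.Agent.R163.Q3.D.F8L.F3
import Crest.Agent.R163.Q3.D.F8L.F4
import Crest.Agent.R163.Q3.D.F8L.F5
import Crest.Agent.R163.Q3.D.F8L.F6
import Crest.Agent.R163.Q3.D.F8L.F7
import Crest.Agent.R163.Q3.D.F8L.F8
import Crest.Agent.R163.Q3.D.F8L.F9
import Crest.Agent.R163.Q3.D.F8L.F10
import Crest.Agent.R163.Q3.D.F8L.F11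
import Crest.Agent.R163.Q3.D.F8L.F12
import Crest.Agent.R163.Q3.D.F8L.F13
import Crest.Agent.R163.Q3.D.F8L.F14
import Crest.Agent.R163.Q3.D.F8L.F15
import Crest.Agent.R163.Q3.D.F8L.F16
import Crest.Agent.R163.Q3.D.F8L.F17
import Crest.Agent.R163.Q3.D.F8L.F18
import Crest.Agent.R163.Q3.D.F8L.F19
import Crest.Agent.R163.Q3.D.F8L.F20
import Crest.Agent.R163.Q3.D.F8L.F21
import Crest.Agent.R163.Q3.D.F8L.F22
import Crest.Agent.R163.Q3.D.F8L.F23
import Crest.Agent.R163.Q3.D.F8L.F24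
import Crest.Agent.R163.Q3.D.F8L.F25

set_option autoImplicit false
set_option maxRecDepth 100000
set_option linter.all false
set_option Elab.async false

namespace Crest.Agent.R163.P8L

abbrev f0 := F8L.f0
theorem hf0 : FitOK par f0 :=
  FitOK.of_list [1,2,3,4,5] (by decide +kernel) F8L.lf0
abbrev f1 := F8L.f1
theorem hf1 : FitOK par f1 :=
  FitOK.of_list [1,2,3,4,5] (by decide +kernel) F8L.lf1
abbrev f2 := F8L.f2
theorem hf2 : FitOK par f2 :=
  FitOK.of_list [1,2,3,4,5] (by decide +kernel) F8L.lf2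
abbrev f3 := F8L.f3
theorem hf3 : FitOK par f3 :=
  FitOK.of_list [1,2,3,4,5] (by decide +kernel) F8L.lf3
abbrev f4 := F8L.f4
theorem hf4 : FitOK par f4 :=
  FitOK.of_list [1,2,3,4,5] (by decide +kernel) F8L.lf4
abbrev f5 := F8L.f5
theorem hf5 : FitOK par f5 :=
  FitOK.of_list [1,2,3,4,5] (by decide +kernel) F8L.lf5
abbrev f6 := F8L.f6
theorem hf6 : FitOK par f6 :=
  FitOK.of_list [1,2,3,4,5] (by decide +kernel) F8L.lf6
abbrev f7 := F8L.f7
theorem hf7 : FitOK par f7 :=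
  FitOK.of_list [1,2,3,4,5] (by decide +kernel) F8L.lf7
abbrev f8 := F8L.f8
theorem hf8 : FitOK par f8 :=
  FitOK.of_list [1,2,3,4,5] (by decide +kernel) F8L.lf8
abbrev f9 := F8L.f9
theorem hf9 : FitOK par f9 :=
  FitOK.of_list [1,2,3,4,5] (by decide +kernel) F8L.lf9
abbrev f10 := F8L.f10
theorem hf10 : FitOK par f10 :=
  FitOK.of_list [1,2,3,4,5] (by decide +kernel) F8L.lf10
abbrev f11 := F8L.f11
theorem hf11 : FitOK par f11 :=
  FitOK.of_list [1,2,3,4,5] (by decide +kernel) F8L.lf11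
abbrev f12 := F8L.f12
theorem hf12 : FitOK par f12 :=
  FitOK.of_list [1,2,3,4,5] (by decide +kernel) F8L.lf12
abbrev f13 := F8L.f13
theorem hf13 : FitOK par f13 :=
  FitOK.of_list [1,2,3,4,5] (by decide +kernel) F8L.lf13
abbrev f14 := F8L.f14
theorem hf14 : FitOK par f14 :=
  FitOK.of_list [1,2,3,4,5] (by decide +kernel) F8L.lf14
abbrev f15 := F8L.f15
theorem hf15 : FitOK par f15 :=
  FitOK.of_list [1,2,3,4,5] (by decide +kernel) F8L.lf15
abbrev f16 := F8L.f16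
theorem hf16 : FitOK par f16 :=
  FitOK.of_list [1,2,3,4,5] (by decide +kernel) F8L.lf16
abbrev f17 := F8L.f17
theorem hf17 : FitOK par f17 :=
  FitOK.of_list [1,2,3,4,5] (by decide +kernel) F8L.lf17
abbrev f18 := F8L.f18
theorem hf18 : FitOK par f18 :=
  FitOK.of_list [1,2,3,4,5] (by decide +kernel) F8L.lf18
abbrev f19 := F8L.f19
theorem hf19 : FitOK par f19 :=
  FitOK.of_list [1,2,3,4,5] (by decide +kernel) F8L.lf19
abbrev f20 := F8L.f20
theorem hf20 : FitOK par f20 :=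
  FitOK.of_list [1,2,3,4,5] (by decide +kernel) F8L.lf20
abbrev f21 := F8L.f21
theorem hf21 : FitOK par f21 :=
  FitOK.of_list [1,2,3,4,5] (by decide +kernel) F8L.lf21
abbrev f22 := F8L.f22
theorem hf22 : FitOK par f22 :=
  FitOK.of_list [1,2,3,4,5] (by decide +kernel) F8L.lf22
abbrev f23 := F8L.f23
theorem hf23 : FitOK par f23 :=
  FitOK.of_list [1,2,3,4,5] (by decide +kernel) F8L.lf23
abbrev f24 := F8L.f24
theorem hf24 : FitOK par f24 :=
  FitOK.of_list [1,2,3,4,5] (by decide +kernel) F8L.lf24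
abbrev f25 := F8L.f25
theorem hf25 : FitOK par f25 :=
  FitOK.of_list [1,2,3,4,5] (by decide +kernel) F8L.lf25

end Crest.Agent.R163.P8L
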