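import Crest.Agent.R163.Q3.D.P8L.S0
import Crest.Agent.R163.Q3.D.P8L.H

set_option autoImplicit false
set_option maxRecDepth 100000
set_option linter.all false
set_option Elab.async false

namespace Crest.Agent.R163.P8L

theorem p0_19_2 : Ok2 par f19 ((Box3.unit.l 1).r 1) (selB2 0 (selB2 0 C0 5764618569510813695) 17179861889) :=
  Ok2.run hw hf19 ⟨441,19,19,7,12⟩ 59
    (.part 199 (.chk false 901) (.split 0 (.chk false 901) (.part 1 (.chk false 901) (.split 0 (.chk false 450) (.split 1 (.chk false 450) (.part 6 (.chk false 450) (.split 0 (.chk false 450) (.split 1 (.chk false 450) (.split 0 (.chk false 450) (.split 1 (.chk false 450) (.chk false 450)))))))))))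
    (by decide +kernel)

theorem p0_19_3 : Ok2 par f19 (Box3.unit.l 1) (selB2 1 (selB2 0 C0 5764618569510813695) 17179861889) :=
  Ok2.run hw hf19 ⟨288,19,19,7,12⟩ 59
    (.chk false 901)
    (by decide +kernel)

theorem p0_19_4 : Ok2 par f19 (((((((Box3.unit.r 1).r 0).r 1).r 0).l 1).r 0).l 1) (selB2 0 (selB2 0 (selB2 0 C0 5764618569510813695) 8191) 132949) :=
  Ok2.run hw hf19 ⟨486,19,19,7,12⟩ 59
    (.part 8126 (.chk false 901) (.split 0 (.chk false 225) (.split 1 (.part 2 (.chk false 225) (.split 0 (.chk false 225) (.split 1 (.chk false 225) (.chk false 225)))) (.chk false 225))))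
    (by decide +kernel)

theorem p0_19_5 : Ok2 par f19 (((((((Box3.unit.r 1).r 0).r 1).r 0).l 1).r 0).r 1) (selB2 0 (selB2 0 (selB2 0 C0 5764618569510813695) 8191) 132949) :=
  Ok2.run hw hf19 ⟨452,19,19,7,12⟩ 59
    (.part 895 (.chk false 901) (.split 0 (.chk false 901) (.split 1 (.chk false 901) (.chk false 901))))
    (by decide +kernel)

theorem p0_19_6 : Ok2 par f19 ((((((Box3.unit.r 1).r 0).r 1).r 0).l 1).l 0) (selB2 0 (selB2 0 (selB2 0 C0 5764618569510813695) 8191) 132949) :=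
  Ok2.run hw hf19 ⟨392,19,19,7,12⟩ 59
    (.chk false 901)
    (by decide +kernel)

theorem p0_19_7 : Ok2 par f19 (((((Box3.unit.r 1).r 0).r 1).r 0).l 1) (selB2 1 (selB2 0 (selB2 0 C0 5764618569510813695) 8191) 132949) :=
  Ok2.run hw hf19 ⟨376,19,19,7,12⟩ 59
    (.chk false 901)
    (by decide +kernel)

theorem p0_19_8 : Ok2 par f19 (((((Box3.unit.r 1).r 0).r 1).r 0).r 1) (selB2 1 (selB2 0 (selB2 0 C0 5764618569510813695) 8191) 1964986) :=
  Ok2.run hw hf19 ⟨380,19,19,7,12⟩ 59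
    (.chk false 901)
    (by decide +kernel)

theorem p0_19_9 : Ok2 par f19 (((((Box3.unit.r 1).r 0).r 1).r 0).r 1) (selB2 0 (selB2 0 (selB2 0 C0 5764618569510813695) 8191) 1964986) :=
  Ok2.run hw hf19 ⟨473,19,19,7,12⟩ 59
    (.split 0 (.chk false 901) (.split 0 (.chk false 901) (.split 1 (.part 15 (.chk false 225) (.split 0 (.chk false 901) (.split 1 (.chk false 901) (.chk false 901)))) (.chk false 901))))
    (by decide +kernel)

theorem p0_19_10 : Ok2 par f19 ((((Box3.unit.r 1).r 0).r 1).l 0) (selB2 0 (selB2 0 C0 5764618569510813695) 8191) :=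
  Ok2.run hw hf19 ⟨351,19,19,7,12⟩ 59
    (.chk false 901)
    (by decide +kernel)

theorem p0_19_11 : Ok2 par f19 (((Box3.unit.r 1).r 0).l 1) (selB2 0 (selB2 0 C0 5764618569510813695) 8191) :=
  Ok2.run hw hf19 ⟨329,19,19,7,12⟩ 59
    (.chk false 901)
    (by decide +kernel)

theorem p0_19_12 : Ok2 par f19 ((Box3.unit.r 1).l 0) (selB2 0 (selB2 0 C0 5764618569510813695) 8191) :=
  Ok2.run hw hf19 ⟨316,19,19,7,12⟩ 59
    (.chk false 901)
    (by decide +kernel)

theorem p0_19_13 : Ok2 par f19 (Box3.unit.r 1) (selB2 1 (selB2 0 C0 5764618569510813695) 8191) :=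
  Ok2.run hw hf19 ⟨288,19,19,7,12⟩ 59
    (.chk false 901)
    (by decide +kernel)

theorem p0_19_14 : Ok2 par f19 Box3.unit (selB2 1 C0 5764618569510813695) :=
  Ok2.run hw hf19 ⟨259,19,19,7,12⟩ 59
    (.chk false 901)
    (by decide +kernel)

theorem p0_20_0 : Ok2 par f20 Box3.unit C0 :=
  Ok2.run hw hf20 ⟨261,19,19,10,12⟩ 59
    (.chk false 901)
    (by decide +kernel)

theorem p0_21_0 : Ok2 par f21 Box3.unit C0 :=
  Ok2.run hw hf21 ⟨261,19,19,10,12⟩ 59
    (.chk false 901)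
    (by decide +kernel)

theorem p0_22_0 : Ok2 par f22 ((((Box3.unit.r 0).r 0).l 1).l 0) (selB2 0 (selB2 0 (selB2 0 C0 289383288817275551743) 1) 20) :=
  Ok2.run hw hf22 ⟨354,19,19,7,12⟩ 59
    (.chk false 901)
    (by decide +kernel)

theorem p0_22_1 : Ok2 par f22 ((((Box3.unit.r 0).r 0).l 1).r 0) (selB2 0 (selB2 0 (selB2 0 C0 289383288817275551743) 1) 20) :=
  Ok2.run hw hf22 ⟨491,19,19,7,12⟩ 59
    (.split 1 (.part 6 (.chk false 901) (.split 0 (.chk false 901) (.split 1 (.part 1 (.chk false 901) (.split 0 (.chk false 901) (.split 1 (.chk false 901) (.part 2 (.chk false 901) (.split 0 (.chk false 901) (.split 1 (.chk false 901) (.chk false 901))))))) (.chk false 901)))) (.chk false 901))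
    (by decide +kernel)

theorem p0_22_2 : Ok2 par f22 (((Box3.unit.r 0).r 0).l 1) (selB2 1 (selB2 0 (selB2 0 C0 289383288817275551743) 1) 20) :=
  Ok2.run hw hf22 ⟨338,19,19,7,12⟩ 59
    (.chk false 450)
    (by decide +kernel)

theorem p0_22_3 : Ok2 par f22 (((Box3.unit.r 0).r 0).r 1) (selB2 0 (selB2 0 C0 289383288817275551743) 1) :=
  Ok2.run hw hf22 ⟨338,19,19,7,12⟩ 59
    (.chk false 901)
    (by decide +kernel)

theorem p0_22_4 : Ok2 par f22 ((Box3.unit.r 0).l 0) (selB2 0 (selB2 0 C0 289383288817275551743) 1) :=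
  Ok2.run hw hf22 ⟨301,19,19,7,12⟩ 59
    (.chk false 901)
    (by decide +kernel)

theorem p0_22_5 : Ok2 par f22 (Box3.unit.r 0) (selB2 1 (selB2 0 C0 289383288817275551743) 1) :=
  Ok2.run hw hf22 ⟨288,19,19,7,12⟩ 59
    (.chk false 0)
    (by decide +kernel)

theorem p0_22_6 : Ok2 par f22 (Box3.unit.l 0) (selB2 0 C0 289383288817275551743) :=
  Ok2.run hw hf22 ⟨288,19,19,7,12⟩ 59
    (.chk false 901)
    (by decide +kernel)

theorem p0_22_7 : Ok2 par f22 Box3.unit (selB2 1 C0 289383288817275551743) :=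
  Ok2.run hw hf22 ⟨259,19,19,7,12⟩ 59
    (.chk false 901)
    (by decide +kernel)

theorem p0_23_0 : Ok2 par f23 Box3.unit C0 :=
  Ok2.run hw hf23 ⟨259,19,19,7,12⟩ 59
    (.chk false 901)
    (by decide +kernel)

theorem p0_24_0 : Ok2 par f24 Box3.unit (selB2 1 C0 74939897790944272383) :=
  Ok2.run hw hf24 ⟨263,19,19,7,12⟩ 59
    (.chk false 636)
    (by decide +kernel)

theorem p0_24_1 : Ok2 par f24 Box3.unit (selB2 0 C0 74939897790944272383) :=
  Ok2.run hw hf24 ⟨312,25,25,7,13⟩ 59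
    (.chk true 0)
    (by decide +kernel)

theorem p0_25_0 : Ok2 par f25 Box3.unit (selB2 1 (selB2 1 (selB2 0 C0 89153535) 306763744149503) 4194303) :=
  Ok2.run hw hf25 ⟨354,25,25,13,13⟩ 59
    (.chk true 0)
    (by decide +kernel)

theorem p0_25_1 : Ok2 par f25 Box3.unit (selB2 0 (selB2 1 (selB2 0 C0 89153535) 306763744149503) 4194303) :=
  Ok2.run hw hf25 ⟨354,25,25,13,13⟩ 59
    (.chk true 0)
    (by decide +kernel)

theorem p0_25_2 : Ok2 par f25 ((((Box3.unit.l 0).r 1).r 0).l 1) (selB2 0 (selB2 0 (selB2 0 (selB2 0 (selB2 0 C0 89153535) 306763744149503) 1) 16) 1) :=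
  Ok2.run hw hf25 ⟨487,25,25,13,13⟩ 59
    (.part 5 (.chk true 0) (.split 0 (.chk true 0) (.chk true 0)))
    (by decide +kernel)

theorem p0_25_3 : Ok2 par f25 ((((Box3.unit.l 0).r 1).r 0).r 1) (selB2 0 (selB2 0 (selB2 0 (selB2 0 (selB2 0 C0 89153535) 306763744149503) 1) 16) 1) :=
  Ok2.run hw hf25 ⟨496,25,25,13,13⟩ 59
    (.part 5 (.chk true 0) (.split 0 (.chk true 0) (.chk true 0)))
    (by decide +kernel)

theorem p0_25_4 : Ok2 par f25 (((Box3.unit.l 0).r 1).l 0) (selB2 0 (selB2 0 (selB2 0 (selB2 0 (selB2 0 C0 89153535) 306763744149503) 1) 16) 1) :=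
  Ok2.run hw hf25 ⟨450,25,25,13,13⟩ 59
    (.chk true 0)
    (by decide +kernel)

theorem p0_25_5 : Ok2 par f25 ((Box3.unit.l 0).r 1) (selB2 1 (selB2 0 (selB2 0 (selB2 0 (selB2 0 C0 89153535) 306763744149503) 1) 16) 1) :=
  Ok2.run hw hf25 ⟨422,25,25,13,13⟩ 59
    (.chk true 0)
    (by decide +kernel)

theorem p0_25_6 : Ok2 par f25 ((Box3.unit.l 0).l 1) (selB2 0 (selB2 0 (selB2 0 (selB2 0 C0 89153535) 306763744149503) 1) 16) :=
  Ok2.run hw hf25 ⟨422,25,25,13,13⟩ 59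
    (.chk true 0)
    (by decide +kernel)

theorem p0_25_7 : Ok2 par f25 (Box3.unit.l 0) (selB2 1 (selB2 0 (selB2 0 (selB2 0 C0 89153535) 306763744149503) 1) 16) :=
  Ok2.run hw hf25 ⟨388,25,25,13,13⟩ 59
    (.chk true 0)
    (by decide +kernel)

theorem p0_25_8 : Ok2 par f25 (Box3.unit.l 0) (selB2 1 (selB2 0 (selB2 0 C0 89153535) 306763744149503) 1) :=
  Ok2.run hw hf25 ⟨333,19,19,13,13⟩ 59
    (.chk false 225)
    (by decide +kernel)

theorem p0_25_9 : Ok2 par f25 ((Box3.unit.r 0).l 1) (selB2 1 (selB2 0 (selB2 0 (selB2 0 (selB2 0 C0 89153535) 306763744149503) 32) 1) 3) :=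
  Ok2.run hw hf25 ⟨422,25,25,13,13⟩ 59
    (.chk true 0)
    (by decide +kernel)

theorem p0_25_10 : Ok2 par f25 ((Box3.unit.r 0).l 1) (selB2 0 (selB2 0 (selB2 0 (selB2 0 (selB2 0 C0 89153535) 306763744149503) 32) 1) 3) :=
  Ok2.run hw hf25 ⟨470,25,25,13,13⟩ 59
    (.split 1 (.chk true 0) (.part 2 (.chk true 0) (.split 0 (.chk true 0) (.chk true 0))))
    (by decide +kernel)

theorem p0_25_11 : Ok2 par f25 ((Box3.unit.r 0).l 1) (selB2 1 (selB2 0 (selB2 0 (selB2 0 C0 89153535) 306763744149503) 32) 1) :=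
  Ok2.run hw hf25 ⟨361,19,19,13,13⟩ 59
    (.chk false 225)
    (by decide +kernel)

theorem p0_25_12 : Ok2 par f25 ((Box3.unit.r 0).r 1) (selB2 0 (selB2 0 (selB2 0 C0 89153535) 306763744149503) 32) :=
  Ok2.run hw hf25 ⟨451,25,25,13,13⟩ 59
    (.part 30 (.chk true 0) (.split 0 (.chk true 0) (.chk true 0)))
    (by decide +kernel)

theorem p0_25_13 : Ok2 par f25 (Box3.unit.r 0) (selB2 1 (selB2 0 (selB2 0 C0 89153535) 306763744149503) 32) :=
  Ok2.run hw hf25 ⟨388,25,25,13,13⟩ 59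
    (.chk true 0)
    (by decide +kernel)


end Crest.Agent.R163.P8L
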