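import Crest.Agent.R163.Q3.D.P8L.P0_0
import Crest.Agent.R163.Q3.D.P8L.P0_1
import Crest.Agent.R163.Q3.D.P8L.P0_2

set_option autoImplicit false
set_option maxRecDepth 100000
set_option linter.all false
set_option Elab.async false

namespace Crest.Agent.R163.P8L

theorem o0_25 : Ok2 par f25 Box3.unit C0 :=
  (Ok2.part 89153535 p0_25_14 (Ok2.part 306763744149503 (Ok2.part 4194303 p0_25_0 p0_25_1) (Ok2.split 0 (Ok2.part 1 p0_25_8 (Ok2.part 16 p0_25_7 (Ok2.split 1 p0_25_6 (Ok2.part 1 p0_25_5 (Ok2.split 0 p0_25_4 (Ok2.split 1 p0_25_2 p0_25_3)))))) (Ok2.part 32 p0_25_13 (Ok2.split 1 (Ok2.part 1 p0_25_11 (Ok2.part 3 p0_25_9 p0_25_10)) p0_25_12)))))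
theorem o0_24 : Ok2 par f24 Box3.unit C0 :=
  (Ok2.part 74939897790944272383 p0_24_0 p0_24_1)
theorem o0_23 : Ok2 par f23 Box3.unit C0 :=
  p0_23_0
theorem o0_22 : Ok2 par f22 Box3.unit C0 :=
  (Ok2.part 289383288817275551743 p0_22_7 (Ok2.split 0 p0_22_6 (Ok2.part 1 p0_22_5 (Ok2.split 0 p0_22_4 (Ok2.split 1 (Ok2.part 20 p0_22_2 (Ok2.split 0 p0_22_0 p0_22_1)) p0_22_3)))))
theorem o0_21 : Ok2 par f21 Box3.unit C0 :=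
  p0_21_0
theorem o0_20 : Ok2 par f20 Box3.unit C0 :=
  p0_20_0
theorem o0_19 : Ok2 par f19 Box3.unit C0 :=
  (Ok2.part 5764618569510813695 p0_19_14 (Ok2.split 1 (Ok2.part 17179861889 p0_19_3 (Ok2.split 1 (Ok2.part 496 p0_19_0 p0_19_1) p0_19_2)) (Ok2.part 8191 p0_19_13 (Ok2.split 0 p0_19_12 (Ok2.split 1 p0_19_11 (Ok2.split 0 p0_19_10 (Ok2.split 1 (Ok2.part 132949 p0_19_7 (Ok2.split 0 p0_19_6 (Ok2.split 1 p0_19_4 p0_19_5))) (Ok2.part 1964986 p0_19_8 p0_19_9))))))))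
theorem o0_18 : Ok2 par f18 Box3.unit C0 :=
  p0_18_0
theorem o0_17 : Ok2 par f17 Box3.unit C0 :=
  (Ok2.part 17179869183 p0_17_0 p0_17_1)
theorem o0_16 : Ok2 par f16 Box3.unit C0 :=
  (Ok2.part 17179869183 p0_16_0 p0_16_1)
theorem o0_15 : Ok2 par f15 Box3.unit C0 :=
  (Ok2.part 17179869183 p0_15_0 p0_15_1)
theorem o0_14 : Ok2 par f14 Box3.unit C0 :=
  (Ok2.part 17179869183 p0_14_0 p0_14_1)
theorem o0_13 : Ok2 par f13 Box3.unit C0 :=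
  (Ok2.part 17179869183 p0_13_0 p0_13_1)
theorem o0_12 : Ok2 par f12 Box3.unit C0 :=
  p0_12_0
theorem o0_11 : Ok2 par f11 Box3.unit C0 :=
  p0_11_0
theorem o0_10 : Ok2 par f10 Box3.unit C0 :=
  p0_10_0
theorem o0_9 : Ok2 par f9 Box3.unit C0 :=
  p0_9_0
theorem o0_8 : Ok2 par f8 Box3.unit C0 :=
  (Ok2.part 17179869183 p0_8_0 p0_8_1)
theorem o0_7 : Ok2 par f7 Box3.unit C0 :=
  p0_7_0
theorem o0_6 : Ok2 par f6 Box3.unit C0 :=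
  p0_6_0
theorem o0_5 : Ok2 par f5 Box3.unit C0 :=
  p0_5_0
theorem o0_4 : Ok2 par f4 Box3.unit C0 :=
  p0_4_0
theorem o0_3 : Ok2 par f3 Box3.unit C0 :=
  p0_3_0
theorem o0_2 : Ok2 par f2 Box3.unit C0 :=
  (Ok2.part 17179869183 p0_2_0 p0_2_1)
theorem o0_1 : Ok2 par f1 Box3.unit C0 :=
  (Ok2.part 17179869183 p0_1_0 p0_1_1)
theorem o0_0 : Ok2 par f0 Box3.unit C0 :=
  (Ok2.part 17179869183 p0_0_0 p0_0_1)

theorem pt0 : PtAll2 par C0 :=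
  PtAll2.of_okD hw (OkD2.cover [f0.dom,f1.dom,f2.dom,f3.dom,f4.dom,f5.dom,f6.dom,f7.dom,f8.dom,f9.dom,f10.dom,f11.dom,f12.dom,f13.dom,f14.dom,f15.dom,f16.dom,f17.dom,f18.dom,f19.dom,f20.dom,f21.dom,f22.dom,f23.dom,f24.dom,f25.dom]
    (.split 0 (.split 0 (.split 2 (.leaf 0) (.split 2 (.leaf 1) (.split 0 (.split 2 (.leaf 2) (.split 2 (.leaf 3) (.split 2 (.leaf 4) (.split 2 (.leaf 5) (.split 2 (.leaf 6) (.split 2 (.leaf 7) (.leaf 8))))))) (.split 2 (.leaf 9) (.split 2 (.leaf 10) (.split 2 (.leaf 11) (.split 2 (.leaf 12) (.leaf 13)))))))) (.split 2 (.split 1 (.leaf 14) (.leaf 15)) (.split 1 (.leaf 16) (.leaf 17)))) (.split 1 (.split 0 (.leaf 18) (.leaf 19)) (.split 0 (.split 1 (.leaf 20) (.leaf 21)) (.split 1 (.leaf 22) (.split 0 (.leaf 23) (.split 1 (.leaf 24) (.leaf 25)))))))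
    (by decide +kernel)
    (List.forall_mem_cons.2 ⟨OkD2.of_ok o0_0, (List.forall_mem_cons.2 ⟨OkD2.of_ok o0_1, (List.forall_mem_cons.2 ⟨OkD2.of_ok o0_2, (List.forall_mem_cons.2 ⟨OkD2.of_ok o0_3, (List.forall_mem_cons.2 ⟨OkD2.of_ok o0_4, (List.forall_mem_cons.2 ⟨OkD2.of_ok o0_5, (List.forall_mem_cons.2 ⟨OkD2.of_ok o0_6, (List.forall_mem_cons.2 ⟨OkD2.of_ok o0_7, (List.forall_mem_cons.2 ⟨OkD2.of_ok o0_8, (List.forall_mem_cons.2 ⟨OkD2.of_ok o0_9, (List.forall_mem_cons.2 ⟨OkD2.of_ok o0_10, (List.forall_mem_cons.2 ⟨OkD2.of_ok o0_11, (List.forall_mem_cons.2 ⟨OkD2.of_ok o0_12, (List.forall_mem_cons.2 ⟨OkD2.of_ok o0_13, (List.forall_mem_cons.2 ⟨OkD2.of_ok o0_14, (List.forall_mem_cons.2 ⟨OkD2.of_ok o0_15, (List.forall_mem_cons.2 ⟨OkD2.of_ok o0_16, (List.forall_mem_cons.2 ⟨OkD2.of_ok o0_17, (List.forall_mem_cons.2 ⟨OkD2.of_ok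 o0_18, (List.forall_mem_cons.2 ⟨OkD2.of_ok o0_19, (List.forall_mem_cons.2 ⟨OkD2.of_ok o0_20, (List.forall_mem_cons.2 ⟨OkD2.of_ok o0_21, (List.forall_mem_cons.2 ⟨OkD2.of_ok o0_22, (List.forall_mem_cons.2 ⟨OkD2.of_ok o0_23, (List.forall_mem_cons.2 ⟨OkD2.of_ok o0_24, (List.forall_mem_cons.2 ⟨OkD2.of_ok o0_25, (fun _ h => nomatch h)⟩)⟩)⟩)⟩)⟩)⟩)⟩)⟩)⟩)⟩)⟩)⟩)⟩)⟩)⟩)⟩)⟩)⟩)⟩)⟩)⟩)⟩)⟩)⟩)⟩)⟩))

end Crest.Agent.R163.P8L
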