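import Crest.Agent.R163.Q3.D.P8L.S0
import Crest.Agent.R163.Q3.D.P8L.H

set_option autoImplicit false
set_option maxRecDepth 100000
set_option linter.all false
set_option Elab.async false

namespace Crest.Agent.R163.P8L

theorem p0_0_0 : Ok2 par f0 Box3.unit (selB2 1 C0 17179869183) :=
  Ok2.run hw hf0 ⟨267,19,19,13,13⟩ 59
    (.chk false 901)
    (by decide +kernel)

theorem p0_0_1 : Ok2 par f0 Box3.unit (selB2 0 C0 17179869183) :=
  Ok2.run hw hf0 ⟨267,19,19,13,13⟩ 59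
    (.chk false 901)
    (by decide +kernel)

theorem p0_1_0 : Ok2 par f1 Box3.unit (selB2 1 C0 17179869183) :=
  Ok2.run hw hf1 ⟨270,19,19,13,13⟩ 59
    (.chk false 901)
    (by decide +kernel)

theorem p0_1_1 : Ok2 par f1 Box3.unit (selB2 0 C0 17179869183) :=
  Ok2.run hw hf1 ⟨270,19,19,13,13⟩ 59
    (.chk false 901)
    (by decide +kernel)

theorem p0_2_0 : Ok2 par f2 Box3.unit (selB2 1 C0 17179869183) :=
  Ok2.run hw hf2 ⟨273,19,19,13,13⟩ 59
    (.chk false 901)
    (by decide +kernel)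

theorem p0_2_1 : Ok2 par f2 Box3.unit (selB2 0 C0 17179869183) :=
  Ok2.run hw hf2 ⟨273,19,19,13,13⟩ 59
    (.chk false 901)
    (by decide +kernel)

theorem p0_3_0 : Ok2 par f3 Box3.unit C0 :=
  Ok2.run hw hf3 ⟨273,19,19,10,12⟩ 59
    (.chk false 901)
    (by decide +kernel)

theorem p0_4_0 : Ok2 par f4 Box3.unit C0 :=
  Ok2.run hw hf4 ⟨276,19,19,10,12⟩ 59
    (.chk false 901)
    (by decide +kernel)

theorem p0_5_0 : Ok2 par f5 Box3.unit C0 :=
  Ok2.run hw hf5 ⟨279,19,19,10,12⟩ 59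
    (.chk false 901)
    (by decide +kernel)

theorem p0_6_0 : Ok2 par f6 Box3.unit C0 :=
  Ok2.run hw hf6 ⟨282,19,19,10,12⟩ 59
    (.chk false 901)
    (by decide +kernel)

theorem p0_7_0 : Ok2 par f7 Box3.unit C0 :=
  Ok2.run hw hf7 ⟨285,19,19,10,12⟩ 59
    (.chk false 901)
    (by decide +kernel)

theorem p0_8_0 : Ok2 par f8 Box3.unit (selB2 1 C0 17179869183) :=
  Ok2.run hw hf8 ⟨291,19,19,16,13⟩ 59
    (.chk false 901)
    (by decide +kernel)

theorem p0_8_1 : Ok2 par f8 Box3.unit (selB2 0 C0 17179869183) :=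
  Ok2.run hw hf8 ⟨291,19,19,16,13⟩ 59
    (.chk false 901)
    (by decide +kernel)

theorem p0_9_0 : Ok2 par f9 Box3.unit C0 :=
  Ok2.run hw hf9 ⟨270,19,19,10,12⟩ 59
    (.chk false 901)
    (by decide +kernel)

theorem p0_10_0 : Ok2 par f10 Box3.unit C0 :=
  Ok2.run hw hf10 ⟨273,19,19,10,12⟩ 59
    (.chk false 901)
    (by decide +kernel)

theorem p0_11_0 : Ok2 par f11 Box3.unit C0 :=
  Ok2.run hw hf11 ⟨276,19,19,10,12⟩ 59
    (.chk false 901)
    (by decide +kernel)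

theorem p0_12_0 : Ok2 par f12 Box3.unit C0 :=
  Ok2.run hw hf12 ⟨279,19,19,10,12⟩ 59
    (.chk false 901)
    (by decide +kernel)

theorem p0_13_0 : Ok2 par f13 Box3.unit (selB2 1 C0 17179869183) :=
  Ok2.run hw hf13 ⟨285,19,19,16,13⟩ 59
    (.chk false 901)
    (by decide +kernel)

theorem p0_13_1 : Ok2 par f13 Box3.unit (selB2 0 C0 17179869183) :=
  Ok2.run hw hf13 ⟨285,19,19,16,13⟩ 59
    (.chk false 901)
    (by decide +kernel)

theorem p0_14_0 : Ok2 par f14 Box3.unit (selB2 1 C0 17179869183) :=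
  Ok2.run hw hf14 ⟨270,19,19,16,13⟩ 59
    (.chk false 901)
    (by decide +kernel)

theorem p0_14_1 : Ok2 par f14 Box3.unit (selB2 0 C0 17179869183) :=
  Ok2.run hw hf14 ⟨270,19,19,16,13⟩ 59
    (.chk false 901)
    (by decide +kernel)

theorem p0_15_0 : Ok2 par f15 Box3.unit (selB2 1 C0 17179869183) :=
  Ok2.run hw hf15 ⟨270,19,19,16,13⟩ 59
    (.chk false 901)
    (by decide +kernel)

theorem p0_15_1 : Ok2 par f15 Box3.unit (selB2 0 C0 17179869183) :=
  Ok2.run hw hf15 ⟨270,19,19,16,13⟩ 59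
    (.chk false 901)
    (by decide +kernel)

theorem p0_16_0 : Ok2 par f16 Box3.unit (selB2 1 C0 17179869183) :=
  Ok2.run hw hf16 ⟨270,19,19,16,13⟩ 59
    (.chk false 901)
    (by decide +kernel)

theorem p0_16_1 : Ok2 par f16 Box3.unit (selB2 0 C0 17179869183) :=
  Ok2.run hw hf16 ⟨270,19,19,16,13⟩ 59
    (.chk false 901)
    (by decide +kernel)

theorem p0_17_0 : Ok2 par f17 Box3.unit (selB2 1 C0 17179869183) :=
  Ok2.run hw hf17 ⟨270,19,19,16,13⟩ 59
    (.chk false 901)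
    (by decide +kernel)

theorem p0_17_1 : Ok2 par f17 Box3.unit (selB2 0 C0 17179869183) :=
  Ok2.run hw hf17 ⟨270,19,19,16,13⟩ 59
    (.chk false 901)
    (by decide +kernel)

theorem p0_18_0 : Ok2 par f18 Box3.unit C0 :=
  Ok2.run hw hf18 ⟨261,19,19,10,12⟩ 59
    (.chk false 901)
    (by decide +kernel)

theorem p0_19_0 : Ok2 par f19 ((Box3.unit.l 1).l 1) (selB2 1 (selB2 0 (selB2 0 C0 5764618569510813695) 17179861889) 496) :=
  Ok2.run hw hf19 ⟨310,19,19,7,12⟩ 59
    (.chk false 450)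
    (by decide +kernel)

theorem p0_19_1 : Ok2 par f19 ((Box3.unit.l 1).l 1) (selB2 0 (selB2 0 (selB2 0 C0 5764618569510813695) 17179861889) 496) :=
  Ok2.run hw hf19 ⟨405,19,19,7,12⟩ 59
    (.split 0 (.part 5 (.chk false 901) (.split 0 (.chk false 901) (.split 1 (.chk false 901) (.chk false 901)))) (.part 4 (.chk false 901) (.split 1 (.part 6 (.chk false 901) (.split 0 (.chk false 901) (.chk false 901))) (.part 1 (.chk false 901) (.split 0 (.part 1 (.chk false 901) (.split 1 (.chk false 901) (.split 0 (.chk false 901) (.chk false 901)))) (.chk false 901))))))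
    (by decide +kernel)


end Crest.Agent.R163.P8L
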